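import Vale.Agent.P038.Defs
import Mathlib

/-!
# Closed neighbourhoods, the boundary function `c` and minimal extensions (P038, helper337)
-/

namespace Vale.Agent.P038.H337

open Finset

variable {V : Type*} [DecidableEq V]

/-- A reflexive antisymmetric relation on `V` given by closed out-neighbourhoods. -/
structure Cl (V : Type*) [DecidableEq V] where
  /-- closed out-neighbourhood -/
  N : V → Finset V
  refl : ∀ v, v ∈ N v
  anti : ∀ u v, v ∈ N u → u ∈ N v → u = v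

variable (A : Cl V)

/-- Closed out-neighbourhood of a set. -/
def Cl.S (X : Finset V) : Finset V := X.biUnion A.N

theorem Cl.mem_S {X : Finset V} {u : V} : u ∈ A.S X ↔ ∃ x ∈ X, u ∈ A.N x := by
  simp [Cl.S]

theorem Cl.subset_S (X : Finset V) : X ⊆ A.S X := fun x hx => A.mem_S.2 ⟨x, hx, A.refl x⟩

theorem Cl.S_mono {X Y : Finset V} (h : X ⊆ Y) : A.S X ⊆ A.S Y := fun u hu => by
  obtain ⟨x, hx, hu⟩ := A.mem_S.1 hu
  exact A.mem_S.2 ⟨x, h hx, hu⟩

theorem Cl.S_union (X Y : Finset V) : A.S (X ∪ Y) = A.S X ∪ A.S Y := by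
  ext u
  simp only [A.mem_S, mem_union]
  constructor
  · rintro ⟨x, hx | hx, h⟩
    · exact Or.inl ⟨x, hx, h⟩
    · exact Or.inr ⟨x, hx, h⟩
  · rintro (⟨x, hx, h⟩ | ⟨x, hx, h⟩)
    · exact ⟨x, Or.inl hx, h⟩
    · exact ⟨x, Or.inr hx, h⟩

/-- The boundary function. -/
def Cl.c (X : Finset V) : ℕ := (A.S X \ X).card

theorem Cl.c_add_card (X : Finset V) : A.c X + X.card = (A.S X).card := by
  unfold Cl.c
  exact card_sdiff_add_card_eq_card (A.subset_S X)

theorem Cl.submod (X Y : Finset V) : A.c (X ∪ Y) + A.c (X ∩ Y) ≤ A.c X + A.c Y := by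
  have h1 := A.c_add_card X
  have h2 := A.c_add_card Y
  have h3 := A.c_add_card (X ∪ Y)
  have h4 := A.c_add_card (X ∩ Y)
  have h5 := card_union_add_card_inter X Y
  have h6 := card_union_add_card_inter (A.S X) (A.S Y)
  have h7 : (A.S (X ∩ Y)).card ≤ (A.S X ∩ A.S Y).card :=
    card_le_card (subset_inter (A.S_mono inter_subset_left) (A.S_mono inter_subset_right))
  rw [A.S_union] at h3
  omega

/-- The minimum of `c` over the interval `[W, K]`. -/
noncomputable def Cl.m (W K : Finset V) : ℕ := sInf {k | ∃ U, W ⊆ U ∧ U ⊆ K ∧ A.c U = k}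

theorem Cl.m_le {W K U : Finset V} (h1 : W ⊆ U) (h2 : U ⊆ K) : A.m W K ≤ A.c U :=
  Nat.sInf_le ⟨U, h1, h2, rfl⟩

theorem Cl.exists_m {W K : Finset V} (h : W ⊆ K) : ∃ U, W ⊆ U ∧ U ⊆ K ∧ A.c U = A.m W K :=
  Nat.sInf_mem (s := {k | ∃ U, W ⊆ U ∧ U ⊆ K ∧ A.c U = k}) ⟨_, W, Subset.refl _, h, rfl⟩

theorem Cl.m_mono {W W' K : Finset V} (h : W ⊆ W') (h' : W' ⊆ K) : A.m W K ≤ A.m W' K := by
  obtain ⟨U, h1, h2, h3⟩ := A.exists_m h'
  rw [← h3]
  exact A.m_le (h.trans h1) h2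

theorem Cl.m_self (K : Finset V) : A.m K K = A.c K := by
  obtain ⟨U, h1, h2, h3⟩ := A.exists_m (Subset.refl K)
  rw [← h3, Subset.antisymm h2 h1]

/-- The exchange inequality between two intervals. -/
theorem Cl.m_exchange {W K W' K' : Finset V} {b : V} (hW : W ⊆ W') (hK : K ⊆ K')
    (hWK : insert b W ⊆ K) (hWK' : W' ⊆ K') :
    A.m (insert b W') K' + A.m W K ≤ A.m (insert b W) K + A.m W' K' := by
  obtain ⟨U, h1, h2, h3⟩ := A.exists_m hWK
  obtain ⟨U', h1', h2', h3'⟩ := A.exists_m hWK'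
  rw [← h3, ← h3']
  refine le_trans ?_ (A.submod U U')
  refine Nat.add_le_add (A.m_le ?_ (union_subset (h2.trans hK) h2'))
    (A.m_le ?_ (inter_subset_left.trans h2))
  · intro x hx
    rcases mem_insert.1 hx with rfl | hx
    · exact mem_union_left _ (h1 (mem_insert_self _ _))
    · exact mem_union_right _ (h1' hx)
  · intro x hx
    exact mem_inter.2 ⟨h1 (mem_insert_of_mem hx), h1' (hW hx)⟩

end Vale.Agent.P038.H337
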