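import Vale.Agent.P038.H337.Shift

/-!
# An arc-minimal counterexample has strictly decreasing boundaries; the conjecture
(P038; the deletion argument is due to helper294)
-/

namespace Vale.Agent.P038.H337

open Finset

section open_nbhd

variable {V : Type*} [DecidableEq V] [Fintype V]

/-- Second out-neighbourhood for a family of out-neighbourhoods. -/
def sec (O : V → Finset V) (v : V) : Finset V := (O v).biUnion O \ insert v (O v)

theorem mem_sec {O : V → Finset V} {v z : V} :
    z ∈ sec O v ↔ (∃ u ∈ O v, z ∈ O u) ∧ z ≠ v ∧ z ∉ O v := by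
  simp [sec]

/-- A counterexample. -/
structure CE (O : V → Finset V) : Prop where
  irr : ∀ v, v ∉ O v
  asymm : ∀ u v, v ∈ O u → u ∉ O v
  lt : ∀ v, (sec O v).card < (O v).card

/-- Closed neighbourhoods. -/
def toCl (O : V → Finset V) (h : CE O) : Cl V where
  N v := insert v (O v)
  refl v := mem_insert_self _ _
  anti u v h1 h2 := by
    rcases mem_insert.1 h1 with h3 | h3
    · exact h3.symm
    · rcases mem_insert.1 h2 with h4 | h4
      · exact h4
      · exact absurd h4 (h.asymm u v h3)

/-- The deletion argument. -/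
theorem deletion {O : V → Finset V} (h : CE O)
    (hmin : ∀ O', CE O' → (∀ v, O' v ⊆ O v) → O' = O) (X : Finset V)
    (hX : (toCl O h).S X ≠ X) : (toCl O h).c ((toCl O h).S X) < (toCl O h).c X := by
  classical
  set A := toCl O h with hA
  have hN : ∀ v, A.N v = insert v (O v) := fun v => rfl
  have hmemN : ∀ u v, u ∈ A.N v ↔ u = v ∨ u ∈ O v := fun u v => by rw [hN, mem_insert]
  set L := A.S X \ X with hL
  have hLne : L.Nonempty := by
    rw [hL, sdiff_nonempty]
    intro hh
    exact hX (Subset.antisymm hh (A.subset_S X))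
  have hLX : Disjoint L X := sdiff_disjoint
  by_contra hcon
  push Not at hcon
  let d : Finset V → ℤ := fun T => ((A.S T \ X).card : ℤ) - 2 * (T.card : ℤ)
  have hd0 : d ∅ = 0 := by simp [d, Cl.S]
  have hcX : A.c X = L.card := rfl
  have hLsub : L ⊆ A.S L \ X := fun u hu =>
    mem_sdiff.2 ⟨A.subset_S L hu, fun hx => disjoint_left.1 hLX hu hx⟩
  have hSS : A.S (A.S X) \ A.S X = (A.S L \ X) \ L := by
    have hSX : A.S X = X ∪ L := by
      rw [hL, union_sdiff_of_subset (A.subset_S X)]
    ext u
    constructor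
    · intro hu
      obtain ⟨hu1, hu2⟩ := mem_sdiff.1 hu
      have hu3 : u ∉ X := fun hx => hu2 (A.subset_S X hx)
      have hu4 : u ∉ L := fun hx => hu2 (by rw [hSX]; exact mem_union_right _ hx)
      rw [hSX, A.S_union] at hu1
      rcases mem_union.1 hu1 with hu5 | hu5
      · exact absurd hu5 hu2
      · exact mem_sdiff.2 ⟨mem_sdiff.2 ⟨hu5, hu3⟩, hu4⟩
    · intro hu
      obtain ⟨hu1, hu2⟩ := mem_sdiff.1 hu
      obtain ⟨hu3, hu4⟩ := mem_sdiff.1 hu1
      refine mem_sdiff.2 ⟨A.S_mono sdiff_subset hu3, ?_⟩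
      rw [hSX]
      intro hx
      rcases mem_union.1 hx with hx | hx
      · exact hu4 hx
      · exact hu2 hx
  have hdL : 0 ≤ d L := by
    have h1 : A.c (A.S X) + L.card = (A.S L \ X).card := by
      unfold Cl.c
      rw [hSS]
      exact card_sdiff_add_card_eq_card hLsub
    have h2 : L.card ≤ A.c (A.S X) := hcon
    simp only [d]
    have h3 : 2 * L.card ≤ (A.S L \ X).card := by omega
    have : (2 * (L.card : ℤ)) ≤ ((A.S L \ X).card : ℤ) := by exact_mod_cast h3
    linarith
  -- the minimiser
  have hne : (L.powerset.erase L).Nonempty :=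
    ⟨∅, mem_erase.2 ⟨hLne.ne_empty.symm, empty_mem_powerset _⟩⟩
  obtain ⟨T, hT, hTmin⟩ := exists_min_image _ d hne
  obtain ⟨hTne, hTL'⟩ := mem_erase.1 hT
  have hTL : T ⊆ L := mem_powerset.1 hTL'
  have hdT : d T ≤ 0 := by
    rw [← hd0]
    exact hTmin _ (mem_erase.2 ⟨hLne.ne_empty.symm, empty_mem_powerset _⟩)
  have hstep : ∀ D' : Finset V, D' ⊆ L \ T → 2 * D'.card ≤ (A.S D' \ (A.S T ∪ X)).card := by
    intro D' hD'
    have hle : d T ≤ d (T ∪ D') := by
      by_cases hh : T ∪ D' = L
      · rw [hh]; exact hdT.trans hdL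
      · exact hTmin _ (mem_erase.2 ⟨hh, mem_powerset.2
          (union_subset hTL (hD'.trans sdiff_subset))⟩)
    have hdisj : Disjoint T D' := by
      rw [disjoint_right]
      intro x hx
      exact (mem_sdiff.1 (hD' hx)).2
    have hcard : (T ∪ D').card = T.card + D'.card := card_union_of_disjoint hdisj
    have hcard2 : (A.S (T ∪ D') \ X).card = (A.S T \ X).card + (A.S D' \ (A.S T ∪ X)).card := by
      rw [← card_union_of_disjoint]
      · congr 1
        rw [A.S_union]
        ext u
        simp only [mem_sdiff, mem_union]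
        tauto
      · rw [disjoint_right]
        intro u hu hu'
        exact (mem_sdiff.1 hu).2 (mem_union_left _ (mem_sdiff.1 hu').1)
    simp only [d] at hle
    rw [hcard, hcard2] at hle
    push_cast at hle
    have : (2 * (D'.card : ℤ)) ≤ ((A.S D' \ (A.S T ∪ X)).card : ℤ) := by linarith
    exact_mod_cast this
  -- the smaller graph
  let O' : V → Finset V := fun v => if v ∈ X then O v ∩ (X ∪ T) else O v
  have hO'sub : ∀ v, O' v ⊆ O v := by
    intro v
    by_cases hv : v ∈ X
    · simp only [O', hv, if_true]; exact inter_subset_left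
    · simp only [O', hv, if_false]; exact Subset.refl _
  have hCE : CE O' := by
    refine ⟨fun v hv => h.irr v (hO'sub v hv),
      fun u v h1 h2 => h.asymm u v (hO'sub _ h1) (hO'sub _ h2), fun v => ?_⟩
    by_cases hv : v ∈ X
    · -- v in X
      have hO'v : O' v = O v ∩ (X ∪ T) := by simp only [O', hv, if_true]
      set Dv := O v \ (X ∪ T) with hDv
      have hDsub : Dv ⊆ L \ T := by
        intro u hu
        obtain ⟨hu1, hu2⟩ := mem_sdiff.1 hu
        refine mem_sdiff.2 ⟨mem_sdiff.2 ⟨A.mem_S.2 ⟨v, hv, (hmemN u v).2 (Or.inr hu1)⟩,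
          fun hx => hu2 (mem_union_left _ hx)⟩, fun hx => hu2 (mem_union_right _ hx)⟩
      have hE := hstep Dv hDsub
      set E := A.S Dv \ (A.S T ∪ X) with hEdef
      have hcardO : (O' v).card + Dv.card = (O v).card := by
        rw [hO'v, hDv, add_comm]
        exact card_sdiff_add_card_inter _ _
      have hEsub : E ⊆ sec O v ∪ Dv := by
        intro z hz
        obtain ⟨hz1, hz2⟩ := mem_sdiff.1 hz
        have hzX : z ∉ X := fun hx => hz2 (mem_union_right _ hx)
        have hzT : z ∉ A.S T := fun hx => hz2 (mem_union_left _ hx)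
        obtain ⟨u, hu, hzu⟩ := A.mem_S.1 hz1
        have huO : u ∈ O v := (mem_sdiff.1 hu).1
        by_cases hzD : z ∈ O v
        · refine mem_union_right _ (mem_sdiff.2 ⟨hzD, fun hx => ?_⟩)
          rcases mem_union.1 hx with hx | hx
          · exact hzX hx
          · exact hzT (A.subset_S T hx)
        · refine mem_union_left _ (mem_sec.2 ⟨⟨u, huO, ?_⟩, fun hzv => hzX (hzv ▸ hv), hzD⟩)
          rcases (hmemN z u).1 hzu with h1 | h1
          · exact absurd (h1 ▸ huO) hzD
          · exact h1
      have hsecsub : sec O' v ⊆ (sec O v ∪ Dv) \ E := by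
        intro z hz
        obtain ⟨⟨u, hu, hzu⟩, hzv, hzO'⟩ := mem_sec.1 hz
        rw [hO'v] at hu
        obtain ⟨huO, huXT⟩ := mem_inter.1 hu
        refine mem_sdiff.2 ⟨?_, ?_⟩
        · by_cases hzO : z ∈ O v
          · refine mem_union_right _ (mem_sdiff.2 ⟨hzO, fun hx => hzO' ?_⟩)
            rw [hO'v]
            exact mem_inter.2 ⟨hzO, hx⟩
          · exact mem_union_left _ (mem_sec.2 ⟨⟨u, huO, hO'sub _ hzu⟩, hzv, hzO⟩)
        · intro hzE
          have hz2 := (mem_sdiff.1 hzE).2
          apply hz2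
          by_cases huX : u ∈ X
          · have hO'u : O' u = O u ∩ (X ∪ T) := by simp only [O', huX, if_true]
            rw [hO'u] at hzu
            rcases mem_union.1 (mem_inter.1 hzu).2 with hx | hx
            · exact mem_union_right _ hx
            · exact mem_union_left _ (A.subset_S T hx)
          · have huT : u ∈ T := by
              rcases mem_union.1 huXT with hx | hx
              · exact absurd hx huX
              · exact hx
            exact mem_union_left _ (A.mem_S.2 ⟨u, huT, (hmemN z u).2 (Or.inr (hO'sub _ hzu))⟩)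
      have hdisj : Disjoint (sec O v) Dv := by
        rw [disjoint_left]
        intro z hz hz'
        exact (mem_sec.1 hz).2.2 (mem_sdiff.1 hz').1
      have hc1 : (sec O' v).card ≤ ((sec O v ∪ Dv) \ E).card := card_le_card hsecsub
      have hc2 : ((sec O v ∪ Dv) \ E).card + E.card = (sec O v ∪ Dv).card :=
        card_sdiff_add_card_eq_card hEsub
      rw [card_union_of_disjoint hdisj] at hc2
      have hlt := h.lt v
      omega
    · have hO'v : O' v = O v := by simp only [O', hv, if_false]
      have hsub : sec O' v ⊆ sec O v := by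
        intro z hz
        obtain ⟨⟨u, hu, hzu⟩, hzv, hzO'⟩ := mem_sec.1 hz
        rw [hO'v] at hu hzO'
        exact mem_sec.2 ⟨⟨u, hu, hO'sub _ hzu⟩, hzv, hzO'⟩
      rw [hO'v]
      exact lt_of_le_of_lt (card_le_card hsub) (h.lt v)
  have heq := hmin O' hCE hO'sub
  -- contradiction
  have hex : ∃ l ∈ L, l ∉ T := by
    by_contra hh
    push Not at hh
    exact hTne (Subset.antisymm hTL hh)
  obtain ⟨l, hl, hlT⟩ := hex
  obtain ⟨hl1, hl2⟩ := mem_sdiff.1 hl
  obtain ⟨y, hy, hly⟩ := A.mem_S.1 hl1
  have hlO : l ∈ O y := by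
    rcases (hmemN l y).1 hly with h1 | h1
    · exact absurd (h1 ▸ hy) hl2
    · exact h1
  have hlO' : l ∈ O' y := by rw [heq]; exact hlO
  simp only [O', hy, if_true, mem_inter, mem_union] at hlO'
  rcases hlO'.2 with h1 | h1
  · exact hl2 h1
  · exact hlT h1

/-- There is no counterexample. -/
theorem no_CE [Nonempty V] (O : V → Finset V) (h : CE O) : False := by
  classical
  have hne : (univ.filter fun O : V → Finset V => CE O).Nonempty :=
    ⟨O, mem_filter.2 ⟨mem_univ _, h⟩⟩
  obtain ⟨O₁, hO₁, hmin⟩ := exists_min_image _ (fun O : V → Finset V => ∑ v, (O v).card) hne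
  have h1 : CE O₁ := (mem_filter.1 hO₁).2
  have hmin' : ∀ O', CE O' → (∀ v, O' v ⊆ O₁ v) → O' = O₁ := by
    intro O' hO' hsub
    have hle := hmin O' (mem_filter.2 ⟨mem_univ _, hO'⟩)
    have hle' : ∀ v ∈ univ, (O' v).card ≤ (O₁ v).card := fun v _ => card_le_card (hsub v)
    have heq := (sum_eq_sum_iff_of_le hle').1 (le_antisymm (sum_le_sum hle') hle)
    funext v
    exact eq_of_subset_of_card_le (hsub v) (heq v (mem_univ v)).ge
  refine no_G (A := toCl O₁ h1) (fun a => ?_) (fun X hX => deletion h1 hmin' X hX)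
  have hlt := h1.lt a
  have hpos : 0 < (O₁ a).card := by omega
  obtain ⟨b, hb⟩ := card_pos.1 hpos
  exact ⟨b, mem_insert_of_mem hb, fun hh => h1.irr a (hh ▸ hb)⟩

end open_nbhd

universe u

/-- Seymour's second neighbourhood conjecture. -/
theorem seymour {V : Type u} [Fintype V] [Nonempty V] (D : OGraph V) :
    ∃ v, (N1 D v).card ≤ (N2 D v).card := by
  classical
  by_contra hcon
  push Not at hcon
  refine no_CE (fun v => N1 D v) ⟨fun v hv => D.loopless v (mem_N1.1 hv),
    fun u v h1 h2 => D.asymm u v (mem_N1.1 h1) (mem_N1.1 h2), fun v => ?_⟩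
  refine lt_of_le_of_lt (card_le_card ?_) (hcon v)
  intro z hz
  obtain ⟨⟨u, hu, hzu⟩, hzv, hzO⟩ := mem_sec.1 hz
  exact mem_N2.2 ⟨hzv, fun hh => hzO (mem_N1.2 hh), u, mem_N1.1 hu, mem_N1.1 hzu⟩

end Vale.Agent.P038.H337
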