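import Vale.Agent.P038.H337.Basic

/-!
# Optimal pairs of families and the inequality `(**)` (P038, helper337)
-/

namespace Vale.Agent.P038.H337

open Finset

variable {V : Type*} [DecidableEq V] [Fintype V] (A : Cl V)

/-- A feasible pair of families. -/
structure Pr (P Q : V → Finset V) : Prop where
  hP : ∀ a, A.N a ⊆ P a
  hQ : ∀ a, A.N a ⊆ Q a
  orth : ∀ a b, b ∈ P a → a ∈ Q b → a = b

/-- The cost of a pair. -/
def cost (P Q : V → Finset V) : ℕ := ∑ a, A.c (P a) + ∑ b, A.c (Q b)

/-- An optimal pair. -/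
structure Opt (P Q : V → Finset V) : Prop extends Pr A P Q where
  opt : ∀ P' Q', Pr A P' Q' → cost A P Q ≤ cost A P' Q'

theorem exists_opt : ∃ P Q, Opt A P Q := by
  have h0 : Pr A A.N A.N := ⟨fun _ => Subset.refl _, fun _ => Subset.refl _,
    fun a b h1 h2 => A.anti a b h1 h2⟩
  obtain ⟨P, Q, h, hk⟩ := Nat.sInf_mem (s := {k | ∃ P Q, Pr A P Q ∧ cost A P Q = k})
    ⟨_, A.N, A.N, h0, rfl⟩
  exact ⟨P, Q, h, fun P' Q' h' => by rw [hk]; exact Nat.sInf_le ⟨P', Q', h', rfl⟩⟩

theorem sum_update (f : Finset V → ℕ) (P : V → Finset V) (a : V) (W : Finset V) :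
    ∑ x, f (Function.update P a W x) + f (P a) = ∑ x, f (P x) + f W := by
  rw [← Finset.add_sum_erase univ _ (mem_univ a),
    ← Finset.add_sum_erase univ (fun x => f (P x)) (mem_univ a)]
  have : ∑ x ∈ univ.erase a, f (Function.update P a W x) = ∑ x ∈ univ.erase a, f (P x) := by
    refine sum_congr rfl fun x hx => ?_
    rw [Function.update_of_ne (ne_of_mem_erase hx)]
  rw [this]
  simp only [Function.update_self]
  ring

/-- The rows `C a`. -/
def C (Q : V → Finset V) (a : V) : Finset V := univ.filter fun b => b = a ∨ a ∉ Q b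

/-- The intersection of the rows over the closed in-neighbourhood. -/
def inter (P : V → Finset V) (v : V) : Finset V := univ.filter fun b => ∀ a, v ∈ A.N a → b ∈ P a

variable {A} {P Q : V → Finset V}

theorem mem_C {a b : V} : b ∈ C Q a ↔ b = a ∨ a ∉ Q b := by simp [C]

theorem mem_inter' {v b : V} : b ∈ inter A P v ↔ ∀ a, v ∈ A.N a → b ∈ P a := by simp [inter]

theorem inter_sub {v a : V} (h : v ∈ A.N a) : inter A P v ⊆ P a := fun _ hb => mem_inter'.1 hb a h

theorem Pr.P_sub_C (h : Pr A P Q) (a : V) : P a ⊆ C Q a := fun b hb => by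
  rw [mem_C]
  by_cases hab : b = a
  · exact Or.inl hab
  · exact Or.inr fun hQ => hab (h.orth a b hb hQ).symm

theorem Opt.row (h : Opt A P Q) {a : V} {W : Finset V} (h1 : A.N a ⊆ W) (h2 : W ⊆ C Q a) :
    A.c (P a) ≤ A.c W := by
  have hp : Pr A (Function.update P a W) Q := by
    refine ⟨fun x => ?_, h.hQ, fun x b hb hq => ?_⟩
    · by_cases hx : x = a
      · subst hx; simpa using h1
      · rw [Function.update_of_ne hx]; exact h.hP x
    · by_cases hx : x = a
      · subst hx
        rw [Function.update_self] at hb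
        rcases mem_C.1 (h2 hb) with h3 | h3
        · exact h3.symm
        · exact absurd hq h3
      · rw [Function.update_of_ne hx] at hb
        exact h.orth x b hb hq
  have h3 := h.opt _ _ hp
  have h4 := sum_update A.c P a W
  unfold cost at h3
  omega

theorem Opt.col (h : Opt A P Q) {b : V} {O : Finset V}
    (hO : ∀ a ∈ O, b ∈ C Q a ∧ b ∉ P a) : O.card ≤ (O.biUnion fun a => A.N a \ A.S (Q b)).card := by
  have hne : ∀ a ∈ O, a ∉ Q b := fun a ha => by
    rcases mem_C.1 (hO a ha).1 with h1 | h1
    · subst h1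
      exact absurd (h.hP _ (A.refl _)) (hO _ ha).2
    · exact h1
  have hp : Pr A P (Function.update Q b (Q b ∪ O)) := by
    refine ⟨h.hP, fun x => ?_, fun x y hb hq => ?_⟩
    · by_cases hx : x = b
      · subst hx; rw [Function.update_self]; exact (h.hQ x).trans subset_union_left
      · rw [Function.update_of_ne hx]; exact h.hQ x
    · by_cases hx : y = b
      · subst hx
        rw [Function.update_self] at hq
        rcases mem_union.1 hq with h3 | h3
        · exact h.orth _ _ hb h3
        · exact absurd hb (hO x h3).2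
      · rw [Function.update_of_ne hx] at hq
        exact h.orth x y hb hq
  have h3 := h.opt _ _ hp
  have h4 := sum_update A.c Q b (Q b ∪ O)
  unfold cost at h3
  have h5 := A.c_add_card (Q b)
  have h6 := A.c_add_card (Q b ∪ O)
  have hd : Disjoint (Q b) O := by
    rw [disjoint_right]
    exact hne
  rw [card_union_of_disjoint hd, A.S_union] at h6
  have h7 : (O.biUnion fun a => A.N a \ A.S (Q b)) = A.S O \ A.S (Q b) := by
    ext u
    simp only [mem_biUnion, mem_sdiff, A.mem_S]
    constructor
    · rintro ⟨a, ha, hu, hn⟩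
      exact ⟨⟨a, ha, hu⟩, hn⟩
    · rintro ⟨⟨a, ha, hu⟩, hn⟩
      exact ⟨a, ha, hu, hn⟩
  have h8 : (A.S (Q b) ∪ A.S O).card = (A.S (Q b)).card + (A.S O \ A.S (Q b)).card := by
    rw [← card_union_of_disjoint disjoint_sdiff, union_sdiff_self_eq_union]
  rw [h7]
  omega

/-- Hall's theorem applied to the columns. -/
theorem Opt.hall (h : Opt A P Q) (b : V) : ∃ f : V → V,
    Set.InjOn f {a | b ∈ C Q a ∧ b ∉ P a} ∧
    ∀ a, b ∈ C Q a → b ∉ P a → f a ∈ A.N a ∧ b ∈ inter A (C Q) (f a) := by
  classical
  let ι := {a : V // b ∈ C Q a ∧ b ∉ P a}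
  let t : ι → Finset V := fun a => A.N a.1 \ A.S (Q b)
  have hall : ∀ s : Finset ι, s.card ≤ (s.biUnion t).card := by
    intro s
    have h1 := h.col (b := b) (O := s.image Subtype.val) (by
      intro a ha
      obtain ⟨x, _, rfl⟩ := mem_image.1 ha
      exact x.2)
    rw [card_image_of_injective _ Subtype.val_injective, image_biUnion] at h1
    exact h1
  obtain ⟨g, hg, hg'⟩ := (Finset.all_card_le_biUnion_card_iff_exists_injective t).1 hall
  refine ⟨fun a => if ha : b ∈ C Q a ∧ b ∉ P a then g ⟨a, ha⟩ else a, ?_, ?_⟩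
  · intro a ha a' ha' he
    have ha1 : b ∈ C Q a ∧ b ∉ P a := ha
    have ha2 : b ∈ C Q a' ∧ b ∉ P a' := ha'
    simp only [dif_pos ha1, dif_pos ha2] at he
    have := hg he
    exact congrArg Subtype.val this
  · intro a ha1 ha2
    have ha : b ∈ C Q a ∧ b ∉ P a := ⟨ha1, ha2⟩
    simp only [dif_pos ha]
    have h1 := hg' ⟨a, ha⟩
    have h2 : g ⟨a, ha⟩ ∈ A.N a ∧ g ⟨a, ha⟩ ∉ A.S (Q b) := by
      simpa [t] using h1
    refine ⟨h2.1, mem_inter'.2 fun a' ha' => ?_⟩
    rw [mem_C]
    right
    intro hq
    exact h2.2 (A.mem_S.2 ⟨a', hq, ha'⟩)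

/-- Lemma 1. -/
theorem Opt.lem1 (h : Opt A P Q) {v : V} {W : Finset V} (hW : W ⊆ inter A (C Q) v) :
    A.c (W ∩ inter A P v) ≤ A.c W := by
  classical
  have key : ∀ s : Finset V, (∀ a ∈ s, v ∈ A.N a) →
      A.c (W.filter fun b => ∀ a ∈ s, b ∈ P a) ≤ A.c W := by
    intro s
    induction s using Finset.induction_on with
    | empty => intro _; simp
    | insert a s ha ih =>
      intro hs
      have ih' := ih fun x hx => hs x (mem_insert_of_mem hx)
      refine le_trans ?_ ih'
      have hav := hs a (mem_insert_self _ _)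
      set U := W.filter fun b => ∀ a ∈ s, b ∈ P a with hU
      have he : (W.filter fun b => ∀ x ∈ insert a s, b ∈ P x) = U ∩ P a := by
        ext b
        simp only [hU, mem_filter, mem_inter, mem_insert, forall_eq_or_imp]
        tauto
      rw [he]
      have h1 := A.submod U (P a)
      have hUK : U ⊆ C Q a := fun b hb => inter_sub hav (hW (mem_filter.1 hb).1)
      have h2 : A.c (P a) ≤ A.c (U ∪ P a) :=
        h.row ((h.hP a).trans subset_union_right) (union_subset hUK (h.toPr.P_sub_C a))
      omega
  have h1 := key (univ.filter fun a => v ∈ A.N a) (fun a ha => (mem_filter.1 ha).2)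
  have he : (W.filter fun b => ∀ a ∈ (univ.filter fun a => v ∈ A.N a), b ∈ P a)
      = W ∩ inter A P v := by
    ext b
    simp [mem_inter']
  rwa [he] at h1

theorem inter_mono {P' : V → Finset V} (h : ∀ a, P a ⊆ P' a) (v : V) :
    inter A P v ⊆ inter A P' v := fun _ hb => mem_inter'.2 fun a ha => h a (mem_inter'.1 hb a ha)

/-- The inequality `(**)`. -/
theorem Opt.star (h : Opt A P Q) :
    ∑ a, A.c (C Q a) + ∑ v, A.c (inter A P v) ≤
      ∑ a, A.c (P a) + ∑ v, A.c (inter A (C Q) v) := by
  classical
  set K := inter A (C Q) with hK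
  set X := inter A P with hX
  have hXK : ∀ v, X v ⊆ K v := inter_mono h.toPr.P_sub_C
  let phi : Finset V → V → ℤ := fun J a => (A.m (P a ∪ (C Q a ∩ J)) (C Q a) : ℤ)
  let psi : Finset V → V → ℤ := fun J v => (A.m (X v ∪ (K v ∩ J)) (K v) : ℤ)
  have hsub1 : ∀ J a, P a ∪ (C Q a ∩ J) ⊆ C Q a := fun J a =>
    union_subset (h.toPr.P_sub_C a) inter_subset_left
  have hsub2 : ∀ J v, X v ∪ (K v ∩ J) ⊆ K v := fun J v => union_subset (hXK v) inter_subset_left
  have main : ∀ J : Finset V, ∑ a, phi J a + ∑ v, psi ∅ v ≤ ∑ a, phi ∅ a + ∑ v, psi J v := by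
    intro J
    induction J using Finset.induction_on with
    | empty => exact le_refl _
    | insert b J hb ih =>
      obtain ⟨f, hf, hf'⟩ := h.hall b
      have hpos : ∀ v, 0 ≤ psi (insert b J) v - psi J v := by
        intro v
        have := A.m_mono (K := K v) (W := X v ∪ (K v ∩ J)) (W' := X v ∪ (K v ∩ insert b J))
          (union_subset_union (Subset.refl _) (inter_subset_inter (Subset.refl _)
            (subset_insert _ _))) (hsub2 _ v)
        have h2 : psi J v ≤ psi (insert b J) v := by
          simp only [psi]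
          exact_mod_cast this
        linarith
      have hstep : ∑ a, (phi (insert b J) a - phi J a) ≤
          ∑ v, (psi (insert b J) v - psi J v) := by
        have h1 : ∑ a, (phi (insert b J) a - phi J a) =
            ∑ a ∈ univ.filter (fun a => b ∈ C Q a ∧ b ∉ P a),
              (phi (insert b J) a - phi J a) := by
          symm
          refine sum_subset (subset_univ _) fun a _ ha => ?_
          have ha' : ¬ (b ∈ C Q a ∧ b ∉ P a) := fun hh => ha (mem_filter.2 ⟨mem_univ _, hh⟩)
          have he : P a ∪ (C Q a ∩ insert b J) = P a ∪ (C Q a ∩ J) := by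
            ext x
            simp only [mem_union, mem_inter, mem_insert]
            constructor
            · rintro (hx | ⟨hx, rfl | hx'⟩)
              · exact Or.inl hx
              · by_cases hxP : x ∈ P a
                · exact Or.inl hxP
                · exact absurd ⟨hx, hxP⟩ ha'
              · exact Or.inr ⟨hx, hx'⟩
            · rintro (hx | ⟨hx, hx'⟩)
              · exact Or.inl hx
              · exact Or.inr ⟨hx, Or.inr hx'⟩
          simp only [phi, he, sub_self]
        rw [h1]
        have h2 : ∑ a ∈ univ.filter (fun a => b ∈ C Q a ∧ b ∉ P a),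
              (phi (insert b J) a - phi J a) ≤
            ∑ a ∈ univ.filter (fun a => b ∈ C Q a ∧ b ∉ P a),
              (psi (insert b J) (f a) - psi J (f a)) := by
          refine sum_le_sum fun a ha => ?_
          have ha' := (mem_filter.1 ha).2
          obtain ⟨hfa, hbK⟩ := hf' a ha'.1 ha'.2
          have hKC : K (f a) ⊆ C Q a := inter_sub hfa
          have hXP : X (f a) ⊆ P a := inter_sub hfa
          have e1 : X (f a) ∪ (K (f a) ∩ insert b J) = insert b (X (f a) ∪ (K (f a) ∩ J)) := by
            rw [inter_insert_of_mem hbK, union_insert]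
          have e2 : P a ∪ (C Q a ∩ insert b J) = insert b (P a ∪ (C Q a ∩ J)) := by
            rw [inter_insert_of_mem ha'.1, union_insert]
          have hex := A.m_exchange (b := b) (W := X (f a) ∪ (K (f a) ∩ J)) (K := K (f a))
            (W' := P a ∪ (C Q a ∩ J)) (K' := C Q a)
            (union_subset_union hXP (inter_subset_inter hKC (Subset.refl _))) hKC
            (by rw [← e1]; exact hsub2 _ _) (hsub1 _ _)
          rw [← e1, ← e2] at hex
          simp only [phi, psi]
          have : ((A.m (P a ∪ (C Q a ∩ insert b J)) (C Q a) : ℤ)) +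
              (A.m (X (f a) ∪ (K (f a) ∩ J)) (K (f a)) : ℤ) ≤
              (A.m (X (f a) ∪ (K (f a) ∩ insert b J)) (K (f a)) : ℤ) +
              (A.m (P a ∪ (C Q a ∩ J)) (C Q a) : ℤ) := by exact_mod_cast hex
          linarith
        refine h2.trans ?_
        have hinj : ∀ x ∈ univ.filter (fun a => b ∈ C Q a ∧ b ∉ P a),
            ∀ y ∈ univ.filter (fun a => b ∈ C Q a ∧ b ∉ P a), f x = f y → x = y := by
          intro x hx y hy hxy
          exact hf (mem_filter.1 hx).2 (mem_filter.1 hy).2 hxy
        have h3 : ∑ a ∈ univ.filter (fun a => b ∈ C Q a ∧ b ∉ P a),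
              (psi (insert b J) (f a) - psi J (f a)) =
            ∑ v ∈ (univ.filter (fun a => b ∈ C Q a ∧ b ∉ P a)).image f,
              (psi (insert b J) v - psi J v) := by
          rw [sum_image hinj]
        rw [h3]
        exact sum_le_sum_of_subset_of_nonneg (subset_univ _) fun v _ _ => hpos v
      simp only [sum_sub_distrib] at hstep
      linarith
  have hfin := main univ
  have p1 : ∀ a, phi univ a = (A.c (C Q a) : ℤ) := by
    intro a
    have : P a ∪ (C Q a ∩ univ) = C Q a := by
      rw [inter_univ]; exact union_eq_right.2 (h.toPr.P_sub_C a)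
    simp only [phi, this, A.m_self]
  have p2 : ∀ v, psi univ v = (A.c (K v) : ℤ) := by
    intro v
    have : X v ∪ (K v ∩ univ) = K v := by
      rw [inter_univ]; exact union_eq_right.2 (hXK v)
    simp only [psi, this, A.m_self]
  have p3 : ∀ a, phi ∅ a = (A.c (P a) : ℤ) := by
    intro a
    simp only [phi, inter_empty, union_empty]
    have e : A.m (P a) (C Q a) = A.c (P a) := by
      refine le_antisymm (A.m_le (Subset.refl _) (h.toPr.P_sub_C a)) ?_
      obtain ⟨U, h1, h2, h3⟩ := A.exists_m (h.toPr.P_sub_C a)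
      rw [← h3]
      exact h.row ((h.hP a).trans h1) h2
    rw [e]
  have p4 : ∀ v, psi ∅ v = (A.c (X v) : ℤ) := by
    intro v
    simp only [psi, inter_empty, union_empty]
    have e : A.m (X v) (K v) = A.c (X v) := by
      refine le_antisymm (A.m_le (Subset.refl _) (hXK v)) ?_
      obtain ⟨U, h1, h2, h3⟩ := A.exists_m (hXK v)
      rw [← h3]
      have := h.lem1 h2
      rwa [inter_eq_right.2 h1] at this
    rw [e]
  simp only [p1, p2, p3, p4] at hfin
  exact_mod_cast hfin

end Vale.Agent.P038.H337
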