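import Vale.Agent.P038.H337.Pair

/-!
# The shifted pair is not more expensive (P038, helper337)
-/

namespace Vale.Agent.P038.H337

open Finset

variable {V : Type*} [DecidableEq V] [Fintype V] (A : Cl V)

/-- The second family of the shifted pair. -/
def Yf (Q : V → Finset V) (b : V) : Finset V :=
  univ.filter fun y => y = b ∨ ∀ v ∈ A.N y, b ∉ A.S (inter A (C Q) v)

variable {A} {P Q : V → Finset V}

theorem mem_Yf {b y : V} :
    y ∈ Yf A Q b ↔ y = b ∨ ∀ v ∈ A.N y, b ∉ A.S (inter A (C Q) v) := by simp [Yf]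

theorem Pr.c1 (h : Pr A P Q) {a b : V} (hab : a ≠ b) (ha : a ∈ A.S (Yf A Q b)) :
    b ∉ A.S (inter A (C Q) a) := by
  obtain ⟨y, hy, hay⟩ := A.mem_S.1 ha
  rcases mem_Yf.1 hy with rfl | hy
  · intro hb
    obtain ⟨x, hx, hbx⟩ := A.mem_S.1 hb
    have h1 : x ∈ C Q y := mem_inter'.1 hx y hay
    rcases mem_C.1 h1 with rfl | h1
    · have h2 : x ∈ C Q a := mem_inter'.1 hx a (A.refl a)
      rcases mem_C.1 h2 with h3 | h3
      · exact hab h3.symm
      · exact h3 (h.hQ x hay)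
    · exact h1 (h.hQ x hbx)
  · exact hy a hay

theorem sum_filter_comm (R : V → V → Prop) [∀ a b, Decidable (R a b)] :
    ∑ b, (univ.filter fun a => R a b).card = ∑ a, (univ.filter fun b => R a b).card := by
  simp only [card_filter]
  exact sum_comm

theorem Pr.c2 (h : Pr A P Q) :
    ∑ b, A.c (Yf A Q b) ≤ ∑ a, (A.S (C Q a) \ A.S (inter A (C Q) a)).card := by
  classical
  have h1 : ∀ b, A.c (Yf A Q b) ≤
      (univ.filter fun a => b ∈ A.S (C Q a) ∧ b ∉ A.S (inter A (C Q) a)).card := by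
    intro b
    refine card_le_card fun a ha => ?_
    obtain ⟨ha1, ha2⟩ := mem_sdiff.1 ha
    have hne : a ≠ b := fun hh => ha2 (mem_Yf.2 (Or.inl hh))
    refine mem_filter.2 ⟨mem_univ _, ?_, h.c1 hne ha1⟩
    have ha3 : ¬ ∀ v ∈ A.N a, b ∉ A.S (inter A (C Q) v) := fun hh => ha2 (mem_Yf.2 (Or.inr hh))
    push_neg at ha3
    obtain ⟨v, hv, hb⟩ := ha3
    exact A.S_mono (inter_sub hv) hb
  refine (sum_le_sum fun b _ => h1 b).trans ?_
  rw [sum_filter_comm (fun a b => b ∈ A.S (C Q a) ∧ b ∉ A.S (inter A (C Q) a))]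
  refine le_of_eq (sum_congr rfl fun a _ => ?_)
  congr 1
  ext b
  simp

theorem Pr.c3 (h : Pr A P Q) :
    ∑ a, (C Q a \ inter A (C Q) a).card ≤ ∑ b, A.c (Q b) := by
  classical
  have h1 : ∀ b, (univ.filter fun a => b ∈ C Q a ∧ b ∉ inter A (C Q) a).card ≤ A.c (Q b) := by
    intro b
    refine card_le_card fun a ha => ?_
    obtain ⟨ha1, ha2⟩ := (mem_filter.1 ha).2
    have ha3 : ¬ ∀ s, a ∈ A.N s → b ∈ C Q s := fun hh => ha2 (mem_inter'.2 hh)
    push_neg at ha3
    obtain ⟨s, hs, hb⟩ := ha3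
    have hsQ : s ∈ Q b := by
      by_contra hh
      exact hb (mem_C.2 (Or.inr hh))
    refine mem_sdiff.2 ⟨A.mem_S.2 ⟨s, hsQ, hs⟩, ?_⟩
    rcases mem_C.1 ha1 with rfl | h3
    · exact absurd (h.P_sub_C s (h.hP s hs)) hb
    · exact h3
  refine le_trans ?_ (sum_le_sum fun b _ => h1 b)
  rw [sum_filter_comm (fun a b => b ∈ C Q a ∧ b ∉ inter A (C Q) a)]
  refine le_of_eq (sum_congr rfl fun a _ => ?_)
  congr 1
  ext b
  simp

theorem self_mem_inter (h : Pr A P Q) (v : V) : v ∈ inter A P v :=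
  mem_inter'.2 fun a ha => h.hP a ha

theorem self_mem_Yf (b : V) : b ∈ Yf A Q b := mem_Yf.2 (Or.inl rfl)

/-- The shifted pair, moved one step forward, is feasible. -/
theorem Pr.shift (h : Pr A P Q) :
    Pr A (fun a => A.S (inter A P a)) (fun b => A.S (Yf A Q b)) := by
  refine ⟨fun a u hu => A.mem_S.2 ⟨a, self_mem_inter h a, hu⟩,
    fun b u hu => A.mem_S.2 ⟨b, self_mem_Yf b, hu⟩, fun a b hb ha => ?_⟩
  by_contra hab
  exact h.c1 hab ha (A.S_mono (inter_mono h.P_sub_C a) hb)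

/-- The shifted pair is not more expensive than the optimal pair. -/
theorem Opt.shift_cost (h : Opt A P Q) :
    ∑ a, A.c (inter A P a) + ∑ b, A.c (Yf A Q b) ≤ cost A P Q := by
  have h1 := h.star
  have h2 := h.toPr.c2
  have h3 := h.toPr.c3
  have h4 : ∀ a, (A.S (C Q a) \ A.S (inter A (C Q) a)).card + A.c (inter A (C Q) a) =
      A.c (C Q a) + (C Q a \ inter A (C Q) a).card := by
    intro a
    have hs : inter A (C Q) a ⊆ C Q a := inter_sub (A.refl a)
    have e1 := A.c_add_card (C Q a)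
    have e2 := A.c_add_card (inter A (C Q) a)
    have e3 := card_sdiff_add_card_eq_card hs
    have e4 := card_sdiff_add_card_eq_card (A.S_mono hs)
    omega
  have h5 : ∑ a, (A.S (C Q a) \ A.S (inter A (C Q) a)).card + ∑ a, A.c (inter A (C Q) a) =
      ∑ a, A.c (C Q a) + ∑ a, (C Q a \ inter A (C Q) a).card := by
    rw [← sum_add_distrib, ← sum_add_distrib]
    exact sum_congr rfl fun a _ => h4 a
  unfold cost
  omega

/-- If every vertex has an out-neighbour, some set of the shifted pair is not closed. -/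
theorem exists_not_closed (h : Pr A P Q) [Nonempty V] (hO : ∀ a, ∃ b ∈ A.N a, b ≠ a) :
    ∃ a, A.S (inter A P a) ≠ inter A P a := by
  classical
  by_contra hcon
  push_neg at hcon
  -- a nonempty closed set with the least number of elements
  have hne : (univ.filter fun Z : Finset V => Z.Nonempty ∧ A.S Z = Z).Nonempty := by
    refine ⟨univ, mem_filter.2 ⟨mem_univ _, univ_nonempty, ?_⟩⟩
    exact Subset.antisymm (subset_univ _) (A.subset_S _)
  obtain ⟨Z, hZ, hmin⟩ := exists_min_image _ Finset.card hne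
  obtain ⟨⟨b, hb⟩, hcl⟩ := (mem_filter.1 hZ).2
  obtain ⟨a, hab, hne'⟩ := hO b
  have ha : a ∈ Z := by
    rw [← hcl]
    exact A.mem_S.2 ⟨b, hb, hab⟩
  have hcl2 : A.S (inter A P a ∩ Z) = inter A P a ∩ Z := by
    refine Subset.antisymm ?_ (A.subset_S _)
    refine subset_inter ?_ ?_
    · have := A.S_mono (inter_subset_left (s₁ := inter A P a) (s₂ := Z))
      rwa [hcon a] at this
    · have := A.S_mono (inter_subset_right (s₁ := inter A P a) (s₂ := Z))
      rwa [hcl] at this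
  have hmem : inter A P a ∩ Z ∈ univ.filter fun Z : Finset V => Z.Nonempty ∧ A.S Z = Z :=
    mem_filter.2 ⟨mem_univ _, ⟨a, mem_inter.2 ⟨self_mem_inter h a, ha⟩⟩, hcl2⟩
  have hle := hmin _ hmem
  have heq : inter A P a ∩ Z = Z := eq_of_subset_of_card_le inter_subset_right hle
  have hbX : b ∈ inter A P a := by
    have : b ∈ inter A P a ∩ Z := by rw [heq]; exact hb
    exact (mem_inter.1 this).1
  have hs := h.shift
  have := hs.orth a b (A.subset_S _ hbX) (A.mem_S.2 ⟨b, self_mem_Yf b, hab⟩)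
  exact hne' this

/-- The main contradiction: there is no relation with strictly decreasing boundary function. -/
theorem no_G [Nonempty V] (hO : ∀ a, ∃ b ∈ A.N a, b ≠ a)
    (hG : ∀ X, A.S X ≠ X → A.c (A.S X) < A.c X) : False := by
  obtain ⟨P, Q, h⟩ := exists_opt A
  have hle : ∀ X, A.c (A.S X) ≤ A.c X := by
    intro X
    by_cases hX : A.S X = X
    · rw [hX]
    · exact (hG X hX).le
  obtain ⟨a, ha⟩ := exists_not_closed h.toPr hO
  have h1 := h.shift_cost
  have h2 := h.opt _ _ h.toPr.shift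
  have h3 : ∑ a, A.c (A.S (inter A P a)) < ∑ a, A.c (inter A P a) :=
    sum_lt_sum (fun a _ => hle _) ⟨a, mem_univ _, hG _ ha⟩
  have h4 : ∑ b, A.c (A.S (Yf A Q b)) ≤ ∑ b, A.c (Yf A Q b) := sum_le_sum fun b _ => hle _
  have h5 : cost A (fun a => A.S (inter A P a)) (fun b => A.S (Yf A Q b)) =
    ∑ a, A.c (A.S (inter A P a)) + ∑ b, A.c (A.S (Yf A Q b)) := rfl
  omega

end Vale.Agent.P038.H337
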